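import Vale.Agent.P281.H349.D.Link
import Vale.Agent.P281.H364.TD.D8
import Vale.Agent.P281.H303.UF.Core

/-!
# P281, project T-Delta (helper303): the assembly
-/

open Set Filter Metric Vale.Agent.P281 Vale.Agent.P281.H713
open Vale.Agent.P272.K (Chart IsKahler IsHermitian)
open Vale.Agent.P281.MF Vale.Agent.P281.ISO
open Vale.Agent.P281.H713.TZ Vale.Agent.P281.H64
open Vale.Agent.P281.H64.Gen
open Vale.Agent.P281.H64.Thin (IsThinSet)
open Vale.Agent.P281.H64.TU (Tame KTame RelFormT HasFormsT)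
open scoped Topology ContDiff Manifold

set_option linter.all false

noncomputable section

namespace Vale.Agent.P281.H303.TD

open Vale.Agent.P281.H64.TD

section Mono

variable {E E' E₀ : Type} [NormedAddCommGroup E] [NormedSpace ℂ E] [FiniteDimensional ℂ E]
  [NormedAddCommGroup E'] [NormedSpace ℂ E'] [FiniteDimensional ℂ E']
  [NormedAddCommGroup E₀] [NormedSpace ℂ E₀] [FiniteDimensional ℂ E₀]
variable {X Y : Type} [TopologicalSpace X] [ChartedSpace E X] [IsManifold 𝓘(ℂ, E) ω X]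
  [TopologicalSpace Y] [ChartedSpace E' Y] [IsManifold 𝓘(ℂ, E') ω Y]

theorem relForm_mono {T : Tame E₀ X} {f : X → Y} {S S' : Set Y} (h : S ⊆ S')
    {e₀ : E ≃L[ℂ] (E' × E₀)} {N : ℕ} {𝒜 : Set (Set X)} {κ₀ : Set X → ℕ} {Θ : X → ℂ}
    (hR : RelFormT T f S e₀ N 𝒜 κ₀ Θ) : RelFormT T f S' e₀ N 𝒜 κ₀ Θ := by
  refine ⟨fun x₀ x y₀ hx => hR.hol x₀ x y₀ fun hx' => hx (h hx'), fun r K hr hK => ?_⟩
  obtain ⟨C, hC⟩ := hR.bound r K hr hK
  exact ⟨C, fun v₀ Q h1 h2 h3 h4 => hC v₀ Q h1 h2 h3 fun h5 => h4 (h h5)⟩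

theorem hasForms_mono {T : Tame E₀ X} {f : X → Y} {S S' : Set Y} (h : S ⊆ S')
    {e₀ : E ≃L[ℂ] (E' × E₀)} {Δ : Set X → ℝ} {r : ℕ} {y : Y} (hR : HasFormsT T f S e₀ Δ r y) :
    HasFormsT T f S' e₀ Δ r y := by
  obtain ⟨N, 𝒜, κ₀, Θ, Ξ, h1, h2, h3, h4, h5, h6⟩ := hR
  exact ⟨N, 𝒜, κ₀, Θ, Ξ, h1, h2, h3, relForm_mono h h4, fun b => relForm_mono h (h5 b), h6⟩

end Mono

/-- **D2c + D4 + D10**: `TorDStmt` with the last clause of helper349 (#6364). -/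
def TorNStmt : Prop :=
  ∀ (p d n : ℕ) (X Y : Type) [TopologicalSpace X] [T2Space X] [ConnectedSpace X]
    [ChartedSpace (Cm (p + d)) X] [IsManifold 𝓘(ℂ, Cm (p + d)) ω X] [TopologicalSpace Y]
    [T2Space Y] [ChartedSpace (Cm p) Y] [IsManifold 𝓘(ℂ, Cm p) ω Y] (T : Tame (Cm d) X)
    (f : X → Y) (S : Set Y) (Q : (Fin n → ℝ) → (Fin n → ℝ) → ℝ) (ι : Type) (U : ι → Set Y)
    (π : ι → Y → ((Fin n → ℝ) ≃L[ℝ] EuclideanSpace ℂ (Fin d)))
    (u : ι → Y → EuclideanSpace ℂ (Fin d) → X) (𝒜 : Set (Set X)), 0 < d →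
    ContMDiff 𝓘(ℂ, Cm (p + d)) 𝓘(ℂ, Cm p) ω f → IsClosed S → IsPreconnected Sᶜ →
    (∀ y ∉ S, IsConnected (f ⁻¹' {y})) →
    IsTorM (Cm (p + d)) (Cm p) d T f S Q U π u → 𝒜.Finite →
    (∀ D ∈ 𝒜, J.IsPrime (Cm (p + d)) D) → (∀ D ∈ 𝒜, ∀ y ∉ S, ¬ f ⁻¹' {y} ⊆ D) →
    ∃ L : ι → X → (X → EuclideanSpace ℂ (Fin d)) → (X → Cub (EuclideanSpace ℂ (Fin d))) → Prop,
      IsTorD (Cm (p + d)) (Cm p) d T f S Q U π 𝒜 L ∧
      ∀ a, ∀ y ∈ U a, ∃ φ : EuclideanSpace ℂ (Fin d) → EuclideanSpace ℂ (Fin d) →L[ℂ]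
          EuclideanSpace ℂ (Fin d) →L[ℂ] EuclideanSpace ℂ (Fin d) →L[ℂ] ℂ,
        H349.D.IsThird {v | ∃ D ∈ 𝒜, u a y v ∈ D} φ ∧
        ∀ v, (∀ D ∈ 𝒜, u a y v ∉ D) → ∀ β w, L a (u a y v) β w → ∃ (G : EuclideanSpace ℂ (Fin d)
          ≃L[ℂ] EuclideanSpace ℂ (Fin d)) (c : EuclideanSpace ℂ (Fin d)),
          ∀ᶠ z in 𝓝 v, β (u a y z) = G z + c ∧
            ∀ x₁ x₂ x₃, w (u a y z) ![G x₁, G x₂, G x₃] = φ z x₁ x₂ x₃

/-- all the prime divisors of a finite set -/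
theorem fibIn_fin (fi : FibInStmt) {p d : ℕ} {X Y : Type} [TopologicalSpace X] [T2Space X]
    [CompactSpace X] [ConnectedSpace X]
    [ChartedSpace (Cm (p + d)) X] [IsManifold 𝓘(ℂ, Cm (p + d)) ω X] [TopologicalSpace Y]
    [T2Space Y] [ChartedSpace (Cm p) Y] [IsManifold 𝓘(ℂ, Cm p) ω Y] {f : X → Y} {S : Set Y}
    (hd : 0 < d) (hf : ContMDiff 𝓘(ℂ, Cm (p + d)) 𝓘(ℂ, Cm p) ω f)
    (hP : ∀ S', S ⊆ S' → IsClosed S' → IsProperFibration (n := p + d) (p := p) f S')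
    (hS : IsSmallSet (Cm p) S) (𝒜 : Finset (Set X))
    (h𝒜 : ∀ D ∈ 𝒜, J.IsPrime (Cm (p + d)) D) : ∃ S' : Set Y, S ⊆ S' ∧ IsSmallSet (Cm p) S' ∧
      ∀ D ∈ 𝒜, ∀ y ∉ S', ¬ f ⁻¹' {y} ⊆ D := by
  classical
  induction 𝒜 using Finset.induction_on with
  | empty => exact ⟨S, subset_rfl, hS, fun D hD => absurd hD (Finset.notMem_empty D)⟩
  | insert D 𝒜 hD ih =>
    obtain ⟨S₁, h1, h2, h3⟩ := ih fun D' hD' => h𝒜 D' (Finset.mem_insert_of_mem hD')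
    obtain ⟨S₂, h4, h5, h6⟩ := fi p d X Y f S₁ D hd hf (hP S₁ h1 h2.1) h2
      (h𝒜 D (Finset.mem_insert_self _ _))
    refine ⟨S₂, h1.trans h4, h5, fun D' hD' y hy => ?_⟩
    rcases Finset.mem_insert.1 hD' with rfl | hD'
    · exact h6 y hy
    · exact h3 D' hD' y fun h7 => hy (h4 h7)

/-- the covering of number `m` of the fibre is a torus: it is not degenerate -/
theorem nDegE_of_tor {n p d m : ℕ} {Z Y : Type} [TopologicalSpace Z] [ChartedSpace (Cm n) Z]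
    [TopologicalSpace Y] [ChartedSpace (Cm p) Y] {f : Z → Y} {y : Y}
    (h : IsTorAtE n p d m f y) : TK.TE.NDegE n p d m 0 f y := by
  obtain ⟨E, Γ, _, _, _, _, _, _, 𝓕, q, χ, t, ht, hfi, hM, hty, g, hg, hmin⟩ := h
  obtain ⟨e⟩ : Nonempty E := inferInstance
  obtain ⟨γ, i, z, hz, -⟩ :=
    (H603.TE.sub (𝓕.at t ht) (H603.TE.core Γ m)).cover e
  have hz3 : z ∈ ball (0 : Cm d) 3 := by
    rw [mem_ball_zero_iff]
    linarith
  exact ⟨E, Γ, inferInstance, inferInstance, inferInstance, inferInstance, inferInstance,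
    inferInstance, 𝓕, q, χ, t, ht, hfi, hM, hty, i, z, hz3, fun _ => g, fun _ a => hg a,
    hmin i z hz3, fun b => ⟨0, Subsingleton.elim _ _⟩⟩

/-- the inequality, if the coverings number `m` of the fibres are tori -/
theorem main (torM : TorMStmt) (has : HasDStmt) (torD : TorNStmt) (lift : TU.LiftTStmt) (tame : TU.TameOKStmt) (compl : ComplStmt)
    {p d m : ℕ} {X Y : Type} [TopologicalSpace X]
    [ChartedSpace (Cm (p + d)) X] [TopologicalSpace Y] [ChartedSpace (Cm p) Y] {f : X → Y}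
    {Δ : Set X → ℝ} (hd : 0 < d) (h : H511.Surf.IsFibration (Cm (p + d)) (Cm p) f Δ)
    {w : Chart (p + d) X → Cm (p + d) → Matrix (Fin (p + d)) (Fin (p + d)) ℂ} (hw : IsKahler w)
    {S : Set Y} (hS : IsSmallSet (Cm p) S)
    (hP : ∀ S', S ⊆ S' → IsClosed S' → IsProperFibration (n := p + d) (p := p) f S')
    (hne : Sᶜ.Nonempty) (htor : ∀ y ∉ S, IsTorAtE (p + d) p d m f y)
    (hin : ∀ D, Δ D ≠ 0 → ∀ y ∉ S, ¬ f ⁻¹' {y} ⊆ D) :
    ∃ H : ℕ → Set Y, (∀ k, IsThinSet (Cm p) (H k)) ∧ ∀ y, (∀ k, y ∉ H k) →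
      ∀ (F : Type) [TopologicalSpace F] [T2Space F] [ChartedSpace (Cm d) F] (i : F → X),
        H511.Surf.IsFibre (Cm (p + d)) (Cm d) f y i →
        TZ.S.kodR (Cm (p + d)) (Cm d) i Δ + TZ.S.kodF (p + d) p Δ (id : X → X) f ≤
          TZ.S.kodX (Cm (p + d)) Δ := by
  classical
  have : T2Space X := h.hausdorff.1
  have : T2Space Y := h.hausdorff.2
  have : CompactSpace X := h.compact
  have : ConnectedSpace X := h.connected
  have : IsManifold 𝓘(ℂ, Cm (p + d)) ω X := h.manifold.1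
  have : IsManifold 𝓘(ℂ, Cm p) ω Y := h.manifold.2
  set 𝒜 : Set (Set X) := {D | Δ D ≠ 0} with h𝒜
  have hfin : 𝒜.Finite := h.snc.1
  have hprime : ∀ D ∈ 𝒜, J.IsPrime (Cm (p + d)) D := h.snc.2.1
  have hΔ0 : ∀ D, 0 ≤ Δ D := fun D => (snc01 (JB.snc h.snc) D).1
  have hsurj : Function.Surjective f := fun y => (h.fibres y).nonempty
  have : PreconnectedSpace Y := by
    rw [preconnectedSpace_iff_univ, ← hsurj.range_eq]
    exact isPreconnected_range h.hol.continuous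
  have : Nonempty Y := by
    obtain ⟨x⟩ : Nonempty X := inferInstance
    exact ⟨f x⟩
  have hpre := (compl p Y S hS).2
  obtain ⟨n, Q, ι, U, π, u, hT⟩ := torM p d m X Y f S w hd h.hol (hP S subset_rfl hS.1) hpre hw
    htor hne
  obtain ⟨L, hD, hL⟩ := torD p d n X Y (KTame w) f S Q ι U π u 𝒜 hd h.hol hS.1 hpre
    (fun y _ => h.fibres y) hT hfin hprime hin
  obtain ⟨r, S', hSS, hS', hr, hr1⟩ := H364.TD.gen_rank h.hol hS hpre hne (hP S subset_rfl hS.1)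
    hD hfin hprime hin
  let e₀ : Cm (p + d) ≃L[ℂ] (Cm p × Cm d) := ContinuousLinearEquiv.ofFinrankEq (by
    simp)
  have h1 : ((r : ℕ∞) : WithBot ℕ∞) + TZ.S.kodF (p + d) p Δ (id : X → X) f ≤
      TZ.S.kodX (Cm (p + d)) Δ := by
    refine UF.first_of fun j₂ h₂ => ?_
    exact lift (p + d) p X Y (Cm d) (KTame w) f S' e₀ Δ r j₂
      (tame (p + d) d X w hw.toIsHermitian) h.hol hS' (hP S' hSS hS'.1).submersive h.snc
      (fun y hy => hasForms_mono hSS (has p d r n X Y (KTame w) f S Q ι U π 𝒜 L e₀ Δ hd h.hol hD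
        hfin hprime hΔ0 (fun D hD => lt_of_le_of_ne (hΔ0 D) (Ne.symm hD)) y
        (fun h3 => hy (hSS h3)) (hr y hy))) h₂
  obtain ⟨H, hH, hsub⟩ := hS'.2
  refine ⟨H, hH, fun y hy F _ _ _ i hi => ?_⟩
  have hyS' : y ∉ S' := by
    intro h2
    obtain ⟨k, hk⟩ := mem_iUnion.1 (hsub h2)
    exact hy k hk
  have hyS : y ∉ S := fun h2 => hyS' (hSS h2)
  have hk : TZ.S.kodR (Cm (p + d)) (Cm d) i Δ ≤ ((r : ℕ∞) : WithBot ℕ∞) :=
    H349.D.kodR_link hT (Δ := Δ) hL hyS (hr1 y hyS) hi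
  exact (add_le_add hk le_rfl).trans h1

/-- **T-Delta** from the blocks -/
theorem td (ab : TK.ABStmt) (coreS : TK.TE.CoreStmt) (deg : TK.TE.DegEStmt) (crit : CritStmt)
    (compl : ComplStmt) (toc : TocEStmt) (torM : TorMStmt) (fib : FibTEStmt) (has : HasDStmt)
    (torD : TorNStmt) (fi : FibInStmt) (lift : TU.LiftTStmt) (tame : TU.TameOKStmt) : Vale.Agent.P281.H64.TD.TDStmt := by
  classical
  intro p d X Y _ _ _ _ f Δ hd h hw
  obtain ⟨w, hw⟩ := hw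
  have : T2Space X := h.hausdorff.1
  have : T2Space Y := h.hausdorff.2
  have : CompactSpace X := h.compact
  have : ConnectedSpace X := h.connected
  have : IsManifold 𝓘(ℂ, Cm (p + d)) ω X := h.manifold.1
  have : IsManifold 𝓘(ℂ, Cm p) ω Y := h.manifold.2
  have hsurj : Function.Surjective f := fun y => (h.fibres y).nonempty
  have : PreconnectedSpace Y := by
    rw [preconnectedSpace_iff_univ, ← hsurj.range_eq]
    exact isPreconnected_range h.hol.continuous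
  have : Nonempty Y := by
    obtain ⟨x⟩ : Nonempty X := inferInstance
    exact ⟨f x⟩
  obtain ⟨S₁, hS₁, hP⟩ := crit (p + d) p X Y f h.hol h.fibres
  have hP₁ := hP S₁ subset_rfl hS₁.1
  have hS : ∀ m : ℕ, ∃ S, S₁ ⊆ S ∧ IsSmallSet (Cm p) S ∧
      ((∃ y ∉ S₁, TK.TE.NDegE (p + d) p d m 0 f y) →
        ∀ y ∉ S, TK.TE.NDegE (p + d) p d m 0 f y) ∧
      ∀ D, Δ D ≠ 0 → ∀ y ∉ S, ¬ f ⁻¹' {y} ⊆ D := by
    intro m
    obtain ⟨S₂, h1, h2, h3⟩ : ∃ S, S₁ ⊆ S ∧ IsSmallSet (Cm p) S ∧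
        ((∃ y ∉ S₁, TK.TE.NDegE (p + d) p d m 0 f y) →
          ∀ y ∉ S, TK.TE.NDegE (p + d) p d m 0 f y) := by
      by_cases h4 : ∃ y ∉ S₁, TK.TE.NDegE (p + d) p d m 0 f y
      · obtain ⟨S', g1, g2, g3⟩ := deg p d m 0 X Y f S₁ w hd h.hol hsurj hP₁ hS₁
          (compl p Y S₁ hS₁).2 hw h4
        exact ⟨S', g1, g2, fun _ => g3⟩
      · exact ⟨S₁, subset_rfl, hS₁, fun g => absurd g h4⟩
    obtain ⟨S₃, h4, h5, h6⟩ := fibIn_fin fi hd h.hol (S := S₂)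
      (fun S' h7 h8 => hP S' (h1.trans h7) h8) h2 h.snc.1.toFinset
      (fun D hD => h.snc.2.1 D (h.snc.1.mem_toFinset.1 hD))
    refine ⟨S₃, h1.trans h4, h5, fun h7 y hy => h3 h7 y fun h8 => hy (h4 h8), fun D hD y hy => ?_⟩
    exact h6 D (h.snc.1.mem_toFinset.2 hD) y hy
  choose S hSS hSm hN hin using hS
  have hmain : ∀ m : ℕ, ∃ H : ℕ → Set Y, (∀ k, IsThinSet (Cm p) (H k)) ∧ ∀ y, (∀ k, y ∉ H k) →
      (∃ y ∉ S m, IsTorAtE (p + d) p d m f y) →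
      ∀ (F : Type) [TopologicalSpace F] [T2Space F] [ChartedSpace (Cm d) F] (i : F → X),
        H511.Surf.IsFibre (Cm (p + d)) (Cm d) f y i →
        TZ.S.kodR (Cm (p + d)) (Cm d) i Δ + TZ.S.kodF (p + d) p Δ (id : X → X) f ≤
          TZ.S.kodX (Cm (p + d)) Δ := by
    intro m
    by_cases h4 : ∃ y ∉ S m, IsTorAtE (p + d) p d m f y
    · obtain ⟨y₀, hy₀, hty₀⟩ := h4
      have hN' := hN m ⟨y₀, fun h5 => hy₀ (hSS m h5), nDegE_of_tor hty₀⟩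
      have htor := toc p d m X Y f (S m) w hd h.hol (hP (S m) (hSS m) (hSm m).1)
        (compl p Y (S m) (hSm m)).2 hw hN' ⟨y₀, hy₀, hty₀⟩
      obtain ⟨H, hH, h5⟩ := main torM has torD lift tame compl hd h hw (hSm m)
        (fun S' h7 h8 => hP S' ((hSS m).trans h7) h8) ⟨y₀, hy₀⟩ htor (hin m)
      exact ⟨H, hH, fun y hy _ => h5 y hy⟩
    · obtain ⟨H, hH, -⟩ := (hSm m).2
      exact ⟨H, hH, fun y hy h5 => absurd h5 h4⟩
  choose H hH hm using hmain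
  have hH' : ∀ m, ∃ H' : ℕ → Set Y, (∀ k, IsThinSet (Cm p) (H' k)) ∧ S m ⊆ ⋃ k, H' k :=
    fun m => (hSm m).2
  choose H' hH' hsub using hH'
  refine ⟨fun k => if k.unpair.2 % 2 = 0 then H k.unpair.1 (k.unpair.2 / 2)
    else H' k.unpair.1 (k.unpair.2 / 2), fun k => ?_, fun y hy F _ _ _ i hi hpar => ?_⟩
  · dsimp only
    split_ifs
    · exact hH _ _
    · exact hH' _ _
  · have hy1 : ∀ m k, y ∉ H m k := by
      intro m k
      have h3 := hy (Nat.pair m (2 * k))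
      simpa using h3
    have hy2 : ∀ m, y ∉ S m := by
      intro m h3
      obtain ⟨k, hk⟩ := mem_iUnion.1 (hsub m h3)
      have h4 := hy (Nat.pair m (2 * k + 1))
      have h5 : (2 * k + 1) / 2 = k := by omega
      have h6 : (2 * k + 1) % 2 = 1 := by omega
      simp only [Nat.unpair_pair, h5, h6, one_ne_zero, if_false] at h4
      exact h4 hk
    have hyS₁ : y ∉ S₁ := fun h3 => hy2 0 (hSS 0 h3)
    obtain ⟨m, hmt⟩ := fib p d X Y f S₁ hd h.hol hP₁ ab coreS y hyS₁ F i hi hpar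
    exact hm m y (hy1 m) ⟨y, hy2 m, hmt⟩ F i hi

end Vale.Agent.P281.H303.TD
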