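import Vale.Agent.P281.H303.TE.Fin
import Vale.Agent.P281.H303.TD.Core
import Vale.Agent.P281.H511.D.Fin
import Vale.Agent.P281.H603.TD.TorM
import Vale.Agent.P281.H603.TD.TocE
import Vale.Agent.P281.H603.TD.FibTE
import Vale.Agent.P281.H125.Fib.Bas
import Vale.Agent.P281.H485.K.Uni

/-!
# P281, project T-Delta (helper303): all the blocks, except `TorNStmt`
-/

open Set Filter Metric Vale.Agent.P281 Vale.Agent.P281.H713
open Vale.Agent.P272.K (Chart IsKahler IsHermitian)
open Vale.Agent.P281.H713.TZ Vale.Agent.P281.H64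
open Vale.Agent.P281.H64.Gen
open Vale.Agent.P281.H64.Thin (IsThinSet)
open scoped Topology ContDiff Manifold

set_option linter.all false

noncomputable section

namespace Vale.Agent.P281.H303.TD

open Vale.Agent.P281.H303.UF

/-- **T-Delta**, from `TorNStmt` -/
theorem td_of (torD : TorNStmt) : Vale.Agent.P281.H64.TD.TDStmt :=
  td H152.K.ab H603.TE.coreS (H969.E.degE_of_inputs TK.inputs) crit H383.Gen.compl
    (H603.TD.tocE TK.inputs H125.Fib.tbas)
    (H603.TD.torM TK.inputs H485.K.tuni H125.Fib.tbas H485.U.tameBound (H485.U.norm1 H864.K.e1))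
    H603.TD.fibTE H511.D.hasD torD H364.TD.fibIn H383.U.liftT H383.U.tameOK

end Vale.Agent.P281.H303.TD
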